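import Vale.Agent.P092.UN.St
import Mathlib.RingTheory.Nullstellensatz
import Mathlib.Topology.Algebra.ContinuousMonoidHom
import Mathlib.Topology.Instances.Matrix

/-!
P092: the factors of the groups of the problem. Only definitions.
-/

namespace Vale.Agent.P092GV

open Vale.Agent.P092.UN

/-- The ideal of the polynomials over `k` in the matrix entries which vanish on `H ≤ GL_n(K)`. -/
noncomputable def vanish (k : Type) [Field k] {K : Type} [Field K] [Algebra k K] {n : ℕ}
    (H : Subgroup (GL (Fin n) K)) : Ideal (MvPolynomial (Fin n × Fin n) k) :=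
  MvPolynomial.vanishingIdeal k {x : Fin n × Fin n → K | ∃ g ∈ H, ∀ i j, x (i, j) = g.1 i j}

/-- `H` is Zariski closed in `GL_n(K)`. -/
def ZClosed {K : Type} [Field K] {n : ℕ} (H : Subgroup (GL (Fin n) K)) : Prop :=
  ∀ g : GL (Fin n) K, (∀ p ∈ vanish K H, MvPolynomial.eval (fun ij => g.1 ij.1 ij.2) p = 0) → g ∈ H

/-- `𝔾 ≤ GL_n(K)`, `K` an algebraic closure of `k`, is a connected absolutely simple algebraic group
over `k`: it is Zariski closed, irreducible, defined over `k` (its ideal is generated by polynomials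
over `k`), not commutative, and its proper Zariski closed normal subgroups are finite. -/
structure AbsSimple (k : Type) [Field k] {K : Type} [Field K] [Algebra k K] {n : ℕ}
    (𝔾 : Subgroup (GL (Fin n) K)) : Prop where
  closed : ZClosed 𝔾
  connected : (vanish K 𝔾).IsPrime
  defined : vanish K 𝔾 = (vanish k 𝔾).map (MvPolynomial.map (algebraMap k K))
  noncomm : ∃ g ∈ 𝔾, ∃ h ∈ 𝔾, g * h ≠ h * g
  simple : ∀ N : Subgroup (GL (Fin n) K), N ≤ 𝔾 → ZClosed N →
    (∀ g ∈ 𝔾, ∀ x ∈ N, g * x * g⁻¹ ∈ N) → N = 𝔾 ∨ Finite N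

/-- The group `𝔾(k) ≤ GL_n(k)` of the `k`-points. -/
def points (k : Type) [Field k] {K : Type} [Field K] [Algebra k K] {n : ℕ}
    (𝔾 : Subgroup (GL (Fin n) K)) : Subgroup (GL (Fin n) k) :=
  𝔾.comap (Matrix.GeneralLinearGroup.map (algebraMap k K))

/-- The topological group `G` is the group of `k`-points of a connected absolutely simple algebraic
group `𝔾` over a local field `k`. -/
inductive SimplePts (G : Type) [Group G] [TopologicalSpace G] : Prop
  | mk (k : Type) [NontriviallyNormedField k] [ProperSpace k] (loc : LocK k)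
      (K : Type) [Field K] [Algebra k K] [IsAlgClosure k K] (n : ℕ) (𝔾 : Subgroup (GL (Fin n) K))
      (simple : AbsSimple k 𝔾) (e : G ≃ₜ* points k 𝔾) : SimplePts G

end Vale.Agent.P092GV
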