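import Vale.Agent.P092GV.StQ
import Vale.Agent.P092.UN.Eqv
import Vale.Agent.P092.H19.ShB
import Vale.Agent.P092.H58.Simp
import Vale.Agent.P092.H103.Bri

/-!
P092: the inverse of an amplification, and the conclusion of Q1 in the form of the problem.
-/

set_option autoImplicit false
set_option linter.all false

open scoped InnerProductSpace
open ContinuousLinearMap

namespace Vale.Agent.P092GV

open Vale.Agent.P092 Vale.Agent.P092.H160

section alg

variable {A B ι κ : Type} [Ring A] [StarRing A] [Algebra ℂ A] [StarModule ℂ A] [Ring B] [StarRing B]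
  [Algebra ℂ B] [StarModule ℂ B] [Fintype ι] [Fintype κ]

/-- the matrix `v_i x v_j*` -/
def Em (V : Matrix ι κ B) (i j : κ) (x : B) : Matrix ι ι B :=
  Matrix.of fun a b => V a i * x * star (V b j)

variable {V : Matrix ι κ B} (hV : ∑ i, ∑ a, star (V a i) * V a i = 1)

theorem Em_mid (i j k l : κ) (x y : B) (X : Matrix ι ι B) : Em V i j x * X * Em V k l y =
    Em V i l (x * (∑ a, ∑ b, star (V a j) * X a b * V b k) * y) := by
  ext a c
  simp only [Em, Matrix.mul_apply, Matrix.of_apply, Finset.sum_mul, Finset.mul_sum, mul_assoc]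
  exact Finset.sum_comm

theorem Em_sum {J : Type} (s : Finset J) (i j : κ) (x : J → B) :
    Em V i j (∑ t ∈ s, x t) = ∑ t ∈ s, Em V i j (x t) := by
  ext a c
  simp only [Em, Matrix.of_apply, Matrix.sum_apply, Finset.sum_mul, Finset.mul_sum]

include hV in
theorem Em_mul (i k : κ) (x y : B) : ∑ j, Em V i j x * Em V j k y = Em V i k (x * y) := by
  have : ∀ j, Em V i j x * Em V j k y = Em V i k (x * (∑ a, star (V a j) * V a j) * y) := fun j => by
    ext a c
    simp only [Em, Matrix.mul_apply, Matrix.of_apply, Finset.sum_mul, Finset.mul_sum, mul_assoc]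
  simp only [this]
  rw [← Em_sum, ← Finset.sum_mul, ← Finset.mul_sum, hV, mul_one]

include hV in
theorem Em_inv (x : B) : ∑ i, ∑ j, ∑ a, ∑ b, star (V a i) * Em V i j x a b * V b j = x := by
  have : ∀ i j, ∑ a, ∑ b, star (V a i) * Em V i j x a b * V b j =
      (∑ a, star (V a i) * V a i) * x * ∑ b, star (V b j) * V b j := fun i j => by
    simp only [Em, Matrix.of_apply, Finset.sum_mul, Finset.mul_sum, mul_assoc]
    exact Finset.sum_comm
  simp only [this, ← Finset.mul_sum, ← Finset.sum_mul, hV, mul_one, one_mul]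

include hV in
/-- The inverse of an amplification. -/
theorem exists_inv (f : A →⋆ₙₐ[ℂ] Matrix ι ι B) (hi : Function.Injective f)
    (hs : ∀ x, f 1 * x * f 1 = x → ∃ y, f y = x) (hp : f 1 * V = V) :
    ∃ g : B →⋆ₙₐ[ℂ] Matrix κ κ A, Function.Injective g ∧ (∀ x, g 1 * x * g 1 = x → ∃ y, g y = x) ∧
      ∀ x i j, f (g x i j) = Em V i j x := by
  have h1 : star (f 1) = f 1 := by rw [← map_star, star_one]
  have hc : ∀ i j x, f 1 * Em V i j x * f 1 = Em V i j x := fun i j x => by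
    have e1 : ∀ i a, ∑ b, f 1 a b * V b i = V a i := fun i a => congrFun (congrFun hp a) i
    have e2 : ∀ j c, ∑ b, star (V b j) * f 1 b c = star (V c j) := fun j c => by
      rw [← e1 j c, star_sum]
      refine Finset.sum_congr rfl fun b _ => ?_
      rw [star_mul, ← Matrix.star_apply, h1]
    ext a c
    simp only [Em, Matrix.mul_apply, Matrix.of_apply, ← mul_assoc, ← Finset.sum_mul, e1]
    simp only [mul_assoc, ← Finset.mul_sum, e2]
  choose g hg using fun x i j => hs _ (hc i j x)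
  have ex : ∀ {X Y : Matrix κ κ A}, (∀ i j, f (X i j) = f (Y i j)) → X = Y := fun h =>
    Matrix.ext fun i j => hi (h i j)
  let G : B →⋆ₙₐ[ℂ] Matrix κ κ A :=
    { toFun := fun x => Matrix.of (g x)
      map_smul' := fun c x => ex fun i j => by
        rw [Matrix.of_apply, Matrix.smul_apply, Matrix.of_apply, MonoidHom.id_apply, map_smul, hg, hg]
        ext a b
        simp [Em]
      map_zero' := ex fun i j => by
        rw [Matrix.of_apply, Matrix.zero_apply, map_zero, hg]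
        ext a b
        simp [Em]
      map_add' := fun x y => ex fun i j => by
        rw [Matrix.of_apply, Matrix.add_apply, Matrix.of_apply, Matrix.of_apply, map_add, hg, hg, hg]
        ext a b
        simp [Em, add_mul, mul_add]
      map_mul' := fun x y => ex fun i j => by
        simp only [Matrix.of_apply, Matrix.mul_apply, map_sum, map_mul, hg, Em_mul hV]
      map_star' := fun x => ex fun i j => by
        rw [Matrix.of_apply, Matrix.star_apply, Matrix.of_apply, map_star, hg, hg]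
        ext a b
        simp [Em, mul_assoc] }
  have hG : ∀ x i j, f (G x i j) = Em V i j x := hg
  refine ⟨G, fun x y e => ?_, fun X e => ⟨∑ i, ∑ j, ∑ a, ∑ b, star (V a i) * f (X i j) a b * V b j,
    ex fun k l => ?_⟩, hG⟩
  · rw [← Em_inv hV x, ← Em_inv hV y]
    simp only [← hG, e]
  · conv_rhs => rw [← e]
    rw [hG]
    simp only [Matrix.mul_apply, map_sum, map_mul, hG, Finset.sum_mul, Em_mid, one_mul, mul_one]
    rw [Finset.sum_comm, Em_sum]
    exact Finset.sum_congr rfl fun i _ => Em_sum _ _ _ _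

end alg

section br

variable {Γ Λ : Type} [Group Γ] [Group Λ] {m n : ℕ}

theorem inL {T : UN.Op Γ} : UN.InL T ↔ T ∈ LG Γ := (UN.inL_iff T).trans (inL_iff T)

theorem isSmul {c : ℂ} {S T : UN.Op Γ} : UN.IsSmul c S T ↔ T = c • S :=
  (UN.isSmul_iff c S T).trans (isSmul_iff c S T)

theorem isAdj {S T : UN.Op Γ} : UN.IsAdj S T ↔ T = star S :=
  (UN.isAdj_iff S T).trans (isAdj_iff S T)

theorem u_one : (UN.u 1 : UN.Op Γ) = 1 := (UN.u_eq 1).trans lam_one

/-- the elementary matrix of a matrix over `L(Λ)` -/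
def el (X : Matrix (Fin m) (Fin m) (LG Λ)) : UN.MOp m Λ := fun i j => (X i j).1

theorem el_mul (X Y : Matrix (Fin m) (Fin m) (LG Λ)) : el (X * Y) = UN.mmul (el X) (el Y) := by
  funext i j
  simp only [el, Matrix.mul_apply, AddSubmonoidClass.coe_finsetSum]
  rfl

theorem el_inj {X Y : Matrix (Fin m) (Fin m) (LG Λ)} (h : el X = el Y) : X = Y :=
  Matrix.ext fun i j => Subtype.ext (congrFun (congrFun h i) j)

theorem el_mem (X : Matrix (Fin m) (Fin m) (LG Λ)) : UN.InM (el X) := fun i j => inL.2 (X i j).2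

theorem el_adj (X : Matrix (Fin m) (Fin m) (LG Λ)) : UN.IsMAdj (el X) (el (star X)) :=
  fun i j => isAdj.2 rfl

variable (g : LG Γ →⋆ₙₐ[ℂ] Matrix (Fin m) (Fin m) (LG Λ))

theorem proj_el : UN.IsProj (el (g 1)) :=
  ⟨el_mem _, by simpa only [← map_star, star_one] using el_adj (g 1),
    by rw [← el_mul, ← map_mul, mul_one]⟩

theorem lift {T : UN.Op Γ} (h : UN.InL T) : ∃ y : LG Γ, y.1 = T := ⟨⟨T, inL.1 h⟩, rfl⟩

/-- The elementary isomorphism of a homomorphism. -/
theorem corner_el (hi : Function.Injective g) (hs : ∀ x, g 1 * x * g 1 = x → ∃ y, g y = x) :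
    Nonempty (UN.CornerIso Γ Λ m (el (g 1))) := by
  obtain ⟨F, hF⟩ : ∃ F : UN.Op Γ → UN.MOp m Λ, ∀ y : LG Γ, F y.1 = el (g y) :=
    ⟨Function.extend Subtype.val (fun y => el (g y)) 0,
      fun y => Subtype.val_injective.extend_apply _ _ y⟩
  obtain ⟨I, hI⟩ : ∃ I : UN.MOp m Λ → UN.Op Γ, ∀ y : LG Γ, I (el (g y)) = y.1 :=
    ⟨Function.extend (fun y => el (g y)) Subtype.val 0,
      fun y => Function.Injective.extend_apply (fun _ _ e => hi (el_inj e)) _ _ y⟩
  have hC : ∀ X, UN.InC (el (g 1)) X → ∃ y, el (g y) = X := fun X h => by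
    obtain ⟨Y, rfl⟩ : ∃ Y, el Y = X := ⟨Matrix.of fun i j => ⟨X i j, inL.1 (h.1 i j)⟩, rfl⟩
    obtain ⟨y, rfl⟩ := hs Y (el_inj (by rw [el_mul, el_mul, h.2.1, h.2.2]))
    exact ⟨y, rfl⟩
  refine ⟨⟨F, I, fun T h => ?_, fun X h => ?_, fun T h => ?_, fun X h => ?_, fun S T a b => ?_,
    fun c S T a b e i j => ?_, fun S T a b => ?_, fun S T a b e => ?_⟩⟩
  · obtain ⟨T, rfl⟩ := lift h
    rw [hF]
    exact ⟨el_mem _, by rw [← el_mul, ← map_mul, one_mul], by rw [← el_mul, ← map_mul, mul_one]⟩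
  · obtain ⟨y, rfl⟩ := hC X h
    rw [hI]
    exact inL.2 y.2
  · obtain ⟨T, rfl⟩ := lift h
    rw [hF, hI]
  · obtain ⟨y, rfl⟩ := hC X h
    rw [hI, hF]
  · obtain ⟨S, rfl⟩ := lift a
    obtain ⟨T, rfl⟩ := lift b
    rw [hF, hF]
    exact (hF (S + T)).trans (congrArg el (map_add g S T))
  · obtain ⟨S, rfl⟩ := lift a
    obtain ⟨T, rfl⟩ := lift b
    obtain rfl : T = c • S := Subtype.ext (isSmul.1 e)
    rw [hF, hF, map_smul]
    exact isSmul.2 rfl
  · obtain ⟨S, rfl⟩ := lift a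
    obtain ⟨T, rfl⟩ := lift b
    rw [hF, hF, ← el_mul, ← map_mul]
    exact hF (S * T)
  · obtain ⟨S, rfl⟩ := lift a
    obtain ⟨T, rfl⟩ := lift b
    obtain rfl : T = star S := Subtype.ext (isAdj.1 e)
    rw [hF, hF, map_star]
    exact el_adj _

theorem tr_sum {J : Type} (s : Finset J) (x : J → LG Γ) : tr (∑ k ∈ s, x k) = ∑ k ∈ s, tr (x k) := by
  rw [tr, AddSubmonoidClass.coe_finsetSum, ContinuousLinearMap.sum_apply, inner_sum]
  rfl

theorem tr_one : tr (1 : LG Γ) = 1 := by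
  change ⟪(dl 1 : Ell2 Γ), dl 1⟫_ℂ = 1
  rw [inner_dl, dl_self]

open H103 in
/-- Columns under a projection. -/
theorem exists_cols (hΓ : UN.ICC Γ) {P : Matrix (Fin n) (Fin n) (LG Γ)} (h1 : star P = P)
    (h2 : P * P = P) (h0 : P ≠ 0) : ∃ (m : ℕ) (V : Matrix (Fin n) (Fin m) (LG Γ)),
      ∑ i, ∑ a, star (V a i) * V a i = 1 ∧ P * V = V := by
  obtain ⟨a₀, -⟩ : ∃ a : Fin n, True := by
    by_contra h
    exact h0 (Matrix.ext fun i _ => (h ⟨i, trivial⟩).elim)
  have hm : St.InM (el P) := (UN.inM_iff _).1 (el_mem P)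
  have ha : ∀ X : Ell2 (Fin n × Γ) →L[ℂ] Ell2 (Fin n × Γ), ∀ i j,
      ent (adjoint X) i j = star (ent X j i) := fun X i j => by
    have := cf_adj (A := ent X) (B := fun i j => star (ent X j i)) fun i j => (isAdj_iff _ _).2 rfl
    rw [cf_ent] at this
    rw [← this, ent_cf]
  have hx : ∀ X Y : Ell2 (Fin n × Γ) →L[ℂ] Ell2 (Fin n × Γ), ent (X * Y) = St.mmul (ent X) (ent Y) :=
    fun X Y => cf_inj (by rw [cf_mmul, cf_ent, cf_ent, cf_ent])
  obtain ⟨m, v, a, -, c, d⟩ := H58.exists_rows hΓ (cf_eqv hm)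
    (cf_adj ((UN.isMAdj_iff _ _).1 (by simpa only [h1] using el_adj P))).symm
    (by rw [← cf_mmul, ← UN.mmul_eq, ← el_mul, h2])
    (fun e => h0 (el_inj (cf_inj (e.trans (by simp [cf, el])))))
    (e := 1) (fun _ _ => rfl) (star_one _) (mul_one _)
  refine ⟨m, Matrix.of fun b k => star ⟨ent (v k) a₀ b, (inL_iff _).1 (ent_inM (a k) a₀ b)⟩,
    Subtype.ext ?_, Matrix.ext fun b k => star_injective (Subtype.ext ?_)⟩
  · have e1 : ent (∑ k, v k * adjoint (v k)) a₀ a₀ = ∑ k, ent (v k * adjoint (v k)) a₀ a₀ := by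
      simp only [ent, ContinuousLinearMap.finset_sum_comp, ContinuousLinearMap.comp_finset_sum]
    have e2 : ent (1 : Ell2 (Fin n × Γ) →L[ℂ] Ell2 (Fin n × Γ)) a₀ a₀ = 1 := by
      ext1 w
      change sl (tv (dl a₀) w) a₀ = w
      rw [sl_tv, dl_self, one_smul]
    rw [d, e2] at e1
    simp only [Matrix.of_apply, star_star, AddSubmonoidClass.coe_finsetSum]
    refine Eq.trans (Finset.sum_congr rfl fun k _ => ?_) e1.symm
    rw [hx]
    exact Finset.sum_congr rfl fun b _ => by rw [ha]; rfl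
  · have e1 := congrFun (congrFun (congrArg ent (c k)) a₀) b
    rw [hx, ent_cf] at e1
    simp only [Matrix.mul_apply, Matrix.of_apply, star_sum, star_mul, star_star,
      AddSubmonoidClass.coe_finsetSum, ← Matrix.star_apply, h1]
    exact e1

/-- The case `t = 1`. -/
theorem super_of (h : UN.SuperAll Γ) : UN.Super Γ := by
  intro Λ _ _ hΛ θ
  have mm : ∀ A B : UN.MOp 1 Λ, UN.mmul A B = fun _ _ => A 0 0 * B 0 0 := fun A B => by
    funext i j
    obtain rfl := Subsingleton.elim i 0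
    obtain rfl := Subsingleton.elim j 0
    exact Fin.sum_univ_one _
  have ee : ∀ A : UN.MOp 1 Λ, (fun _ _ => A 0 0) = A := fun A => by
    funext i j
    rw [Subsingleton.elim i 0, Subsingleton.elim j 0]
  obtain ⟨-, δ, χ, w, w', a, b, c, d, e⟩ := h Λ hΛ 1 (fun _ _ => 1)
    ⟨fun _ _ => inL.2 (one_mem _), fun _ _ => isAdj.2 (star_one _).symm, by rw [mm, mul_one]⟩
    ⟨fun T _ _ => θ.toFun T, fun A => θ.invFun (A 0 0),
      fun T h => ⟨fun _ _ => θ.map_mem T h, by rw [mm, one_mul], by rw [mm, mul_one]⟩,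
      fun A h => θ.inv_mem _ (h.1 0 0), θ.left_inv,
      fun A h => by simp only [θ.right_inv _ (h.1 0 0), ee],
      fun S T a b => by rw [θ.map_add S T a b]; rfl,
      fun c S T a b e _ _ => θ.map_smul c S T a b e,
      fun S T a b => by rw [θ.map_mul S T a b, mm]; rfl,
      fun S T a b e _ _ => θ.map_adj S T a b e⟩
  exact ⟨δ, χ, w 0, w' 0, a 0, b 0, (d 0 0).trans u_one.symm, (Fin.sum_univ_one _).symm.trans c,
    fun g => e g 0 0⟩

/-- **The conclusion of Q1 in the form of the problem.** -/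
theorem q1_of (hΓ : UN.ICC Γ) (h : UN.SuperAll Γ) : Q1 Γ := by
  rintro Λ _ _ hΛ n p hp ⟨θ⟩
  have hp' := (UN.isProj_iff p).1 hp
  have hf := H19.cornerIso_toHom hp' θ.old
  have e : H19.toHom θ.old 1 = H19.matL p hp'.mem :=
    el_inj (H103.one_eq hp' θ.old)
  obtain ⟨m, V, a, b⟩ := exists_cols hΓ (P := H19.toHom θ.old 1) (by rw [← map_star, star_one])
    (by rw [← map_mul, mul_one]) fun c => by
      have := congrArg tr (hf.inj (c.trans (map_zero _).symm))
      rw [tr_one] at this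
      exact one_ne_zero (this.trans (by simp [tr]))
  obtain ⟨g, c, d, f⟩ := exists_inv a _ hf.inj hf.surj b
  obtain ⟨θ'⟩ := corner_el g c d
  obtain ⟨t, δ, -⟩ := h Λ hΛ m _ (proj_el g) θ'
  refine ⟨?_, ⟨δ.symm⟩, super_of h Λ hΛ⟩
  have t' : ∑ i, tr (g 1 i i) = 1 := by
    rw [← t, UN.mtr_eq]
    rfl
  have s : ∑ i, ∑ x, tr (H19.toHom θ.old (g 1 i i) x x) = 1 := by
    refine Eq.trans ?_ ((congrArg tr a).trans tr_one)
    rw [tr_sum]
    refine Finset.sum_congr rfl fun i _ => ?_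
    rw [tr_sum, f]
    exact Finset.sum_congr rfl fun x _ => by rw [Em, Matrix.of_apply, mul_one, H108.tr_comm]
  rw [Finset.sum_congr rfl fun i _ => hf.trf hΛ (g 1 i i), ← Finset.mul_sum, t', mul_one] at s
  rw [UN.mtr_eq, H19.mtr_eq p hp'.mem, ← e, s]

end br

end Vale.Agent.P092GV
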