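import Vale.Agent.P092GV.Kaz
import Vale.Agent.P092.H560.Mx.LatC
import Vale.Agent.P092.VR.H978.FN
import Vale.Agent.P092TS.Tits

/-!
P092, final glue: one factor, and the shrinking of the factors of a product.
-/

set_option autoImplicit false
set_option linter.all false

open Filter Topology MeasureTheory Set
open scoped Pointwise ENNReal NNReal

namespace Vale.Agent.P092GV

open Vale.Agent.P092 Vale.Agent.P092.H678.OV Vale.Agent.P092GP Vale.Agent.P092GP.LD

variable {k G : Type} [NontriviallyNormedField k] [Group G] [TopologicalSpace G] {L : LD k G}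

/-- The group is unimodular when `Gp` has finite index. -/
theorem rightInv [IsTopologicalGroup G] [LocallyCompactSpace G] [SecondCountableTopology G]
    [T2Space G] [MeasurableSpace G] [BorelSpace G] (H : L.Ok) (hf : L.Gp.FiniteIndex) :
    (Measure.haar : Measure G).IsMulRightInvariant := by
  refine ⟨fun g => ?_⟩
  obtain ⟨n, a, -, b⟩ := Subgroup.exists_pow_mem_of_index_ne_zero hf.index_ne_zero g
  rw [← P092TS.perfect H] at b
  have c := congrArg Units.val (Abelianization.commutator_subset_ker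
    (Measure.modularCharacter (G := G)).toHomUnits (Subgroup.commutator_mono le_top le_top b))
  rw [MonoidHom.coe_toHomUnits, map_pow, Units.val_one, pow_eq_one_iff] at c
  rw [Measure.map_right_mul_eq_modularCharacterFun_smul,
    show Measure.modularCharacterFun g = 1 from c.resolve_right a.ne', one_smul]

theorem unb_lat (H : L.LP) {E Γ : Type} [Group E] [TopologicalSpace E] [IsTopologicalGroup E]
    [SecondCountableTopology E] [Group Γ] (p : E →* G) (hc : Continuous p)
    (hs : Function.Surjective p) (i : Γ →* E) (h : H515.St.IsLattice i.range) : Unb (p.comp i) := by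
  haveI := H.top
  haveI := H.lc
  haveI := noncompact H
  intro K hK
  obtain ⟨⟨_, γ, rfl⟩, a⟩ := unb p hc hs h K hK
  exact ⟨γ, a⟩

/-- **One factor.** -/
theorem superAll_one' (H : L.LS) (hC : Core k L.R) {Γ : Type} [Group Γ] (hT : UN.PropT Γ)
    (hicc : UN.ICC Γ) (i : Γ →* G) (hi : Function.Injective i) (hl : H515.St.IsLattice i.range) :
    UN.SuperAll Γ := by
  haveI := H.lp.top
  haveI := H.lp.sc
  haveI := H.lp.t2
  haveI := H.lp.lc
  haveI hN := H.quo Γ (hasT_of_propT hT) i
  obtain ⟨L', a, r, b⟩ := P092LS.ls_sub H le_rfl H.closed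
  rw [Subgroup.subgroupOf_self] at b
  haveI := a.lp.lc
  haveI := a.lp.sc
  haveI := noncompact a.lp
  have hf : L'.Gp.FiniteIndex := by rw [b]; infer_instance
  have hu : Unb i := unb_lat H.lp (MonoidHom.id G) continuous_id Function.surjective_id i hl
  have ho := over_ls_of a hf (propT_fi hT _) _ (unb_res hu L.Gp) (r.symm ▸ hC)
  letI : MeasurableSpace L.Gp := borel _
  haveI : BorelSpace L.Gp := ⟨rfl⟩
  haveI := rightInv a.lp.ok hf
  have h1 : H515.IsLattice ((resH i L.Gp).range.map L.Gp.subtype) := by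
    refine VR.H978.isLattice_fi (Λ := i.range) ⟨hl.disc, hl.covol⟩ ?_ ⟨?_⟩
    · rintro _ ⟨_, ⟨x, rfl⟩, rfl⟩
      exact ⟨x, rfl⟩
    · refine fun e => hN.index_ne_zero ?_
      rw [Subgroup.index_comap]
      refine Nat.eq_zero_of_zero_dvd (e ▸ ?_)
      refine Subgroup.index_dvd_of_le ?_ |>.trans (dvd_refl _) |> id
      rintro ⟨_, γ, rfl⟩ (c : i γ ∈ L.Gp)
      exact ⟨_, ⟨⟨γ, c⟩, rfl⟩, rfl⟩
  have h2 := H560.Mx.isLattice_closed Measure.haar L.Gp.subtype H.closed.isClosedEmbedding_subtypeVal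
    _ h1
  exact superAll_virt hicc hN (hasOver_of ho (resH i L.Gp)
    (fun x y e => Subtype.ext (hi (congrArg Subtype.val e))) ⟨h2.disc, h2.covol⟩)

theorem superAll_one (H : L.LS) (hT : UN.KazT G) (hC : Core k L.R) {Γ : Type} [Group Γ]
    (hicc : UN.ICC Γ) (i : Γ →* G) (hi : Function.Injective i) (hl : H515.St.IsLattice i.range) :
    UN.SuperAll Γ :=
  haveI := H.lp.top
  haveI := H.lp.sc
  haveI := H.lp.t2
  haveI := H.lp.lc
  superAll_one' H hC (H759.TL.propT_of_lattice hT i hi (H759.TL.lat_of hl)) hicc i hi hl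

/-- The subgroup generated by `Gp` and a group with property (T). -/
theorem sup_ls (H : L.LS) {Γ : Type} [Group Γ] (hT : UN.PropT Γ) (f : Γ →* G) :
    IsClosed ((L.Gp ⊔ f.range : Subgroup G) : Set G) ∧
      ∃ L' : LD k (L.Gp ⊔ f.range : Subgroup G), L'.LS ∧ L'.R = L.R ∧ L'.Gp.FiniteIndex ∧
        L'.Gp = L.Gp.subgroupOf _ := by
  haveI := H.lp.top
  haveI := H.lp.ok.normal_Gp
  have hN := (H.quo Γ (hasT_of_propT hT) f).index_ne_zero
  rw [Subgroup.index_comap, ← Subgroup.relIndex_sup_left] at hN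
  haveI : (L.Gp.subgroupOf (L.Gp ⊔ f.range)).FiniteIndex := ⟨hN⟩
  haveI : Finite ((L.Gp ⊔ f.range : Subgroup G) ⧸ L.Gp.subgroupOf (L.Gp ⊔ f.range)) :=
    Subgroup.finite_quotient_of_finiteIndex
  have hc : IsClosed ((L.Gp ⊔ f.range : Subgroup G) : Set G) := by
    have e : ((L.Gp ⊔ f.range : Subgroup G) : Set G) =
        ⋃ q : (L.Gp ⊔ f.range : Subgroup G) ⧸ L.Gp.subgroupOf (L.Gp ⊔ f.range),
          (fun x => x * (q.out : G)) ⁻¹' L.Gp := by
      refine Subset.antisymm (fun x a => ?_) (iUnion_subset fun q x a => ?_)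
      · obtain ⟨⟨q, n⟩, e⟩ := (eqN (L.Gp.subgroupOf (L.Gp ⊔ f.range))).surjective ⟨x, a⟩
        refine mem_iUnion.2 ⟨q, ?_⟩
        obtain rfl : ((n : (L.Gp ⊔ f.range : Subgroup G)) : G) * (q.out : G)⁻¹ = x :=
          congrArg Subtype.val e
        show _ * _ ∈ L.Gp
        rw [inv_mul_cancel_right]
        exact n.2
      · exact (Subgroup.mul_mem_cancel_right _ q.out.2).1 (le_sup_left (a := L.Gp) a)
    rw [e]
    exact isClosed_iUnion_of_finite fun q => H.closed.preimage (continuous_mul_const _)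
  obtain ⟨L', a, r, b⟩ := P092LS.ls_sub H le_sup_left hc
  exact ⟨hc, L', a, r, by rw [b]; infer_instance, b⟩

/-- **Shrinking the factors**: a lattice with property (T) of a finite product is a lattice of a
product of groups in which `Gp` has finite index and which satisfy the core statement. -/
theorem shrink {I : Type} [Fintype I] {k G : I → Type} [∀ i, NontriviallyNormedField (k i)]
    [∀ i, Group (G i)] [∀ i, TopologicalSpace (G i)] {L : ∀ i, LD (k i) (G i)} (H : ∀ i, (L i).LS)
    (hC : ∀ i, Core (k i) (L i).R) {Γ : Type} [Group Γ] (hT : UN.PropT Γ) (q : Γ →* ∀ i, G i)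
    (hi : Function.Injective q) (hl : H515.St.IsLattice q.range) :
    ∃ (E : ∀ i, Subgroup (G i)) (L' : ∀ i, LD (k i) (E i)) (q' : Γ →* ∀ i, E i),
      (∀ i, (L' i).LS ∧ (L' i).R = (L i).R ∧ (L' i).Gp.FiniteIndex ∧ UN.KazT (E i) ∧
        OverStmt (E i)) ∧ Function.Injective q' ∧ H515.St.IsLattice q'.range := by
  haveI := fun i => (H i).lp.top
  haveI := fun i => (H i).lp.sc
  haveI := fun i => (H i).lp.t2
  haveI := fun i => (H i).lp.lc
  let f : ∀ i, Γ →* G i := fun i => (Pi.evalMonoidHom G i).comp q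
  choose hc L' a r b b' using fun i => sup_ls (H i) hT (f i)
  let f' : ∀ i, Γ →* ((L i).Gp ⊔ (f i).range : Subgroup (G i)) := fun i =>
    (f i).codRestrict _ fun γ => le_sup_right (a := (L i).Gp) (show f i γ ∈ (f i).range from ⟨γ, rfl⟩)
  have hu : ∀ i, Unb (f' i) := fun i K hK =>
    (unb_lat (H i).lp (Pi.evalMonoidHom G i) (continuous_apply i) (Function.surjective_eval i) q hl _
      (hK.image continuous_subtype_val)).imp fun γ c d => c ⟨_, d, rfl⟩
  haveI := fun i => (a i).lp.lc
  haveI := fun i => (a i).lp.sc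
  letI : ∀ i, MeasurableSpace ((L i).Gp ⊔ (f i).range : Subgroup (G i)) := fun i => borel _
  haveI : ∀ i, BorelSpace ((L i).Gp ⊔ (f i).range : Subgroup (G i)) := fun i => ⟨rfl⟩
  haveI := fun i => rightInv (a i).lp.ok (b i)
  let ι : (∀ i, ((L i).Gp ⊔ (f i).range : Subgroup (G i))) →* ∀ i, G i :=
    MonoidHom.pi fun i => (Subgroup.subtype _).comp (Pi.evalMonoidHom _ i)
  have e : ι.comp (MonoidHom.pi f') = q := rfl
  have h2 := H560.Mx.isLattice_closed (Measure.pi fun i => Measure.haar) ι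
    (IsClosedEmbedding.piMap fun i => (hc i).isClosedEmbedding_subtypeVal) (MonoidHom.pi f').range
    (by rw [← MonoidHom.range_comp, e]; exact ⟨hl.disc, hl.covol⟩)
  refine ⟨_, L', MonoidHom.pi f', fun i => ⟨a i, r i, b i, ?_,
    over_ls_of (a i) (b i) hT _ (hu i) ((r i).symm ▸ hC i)⟩,
    fun x y c => hi (by rw [← e]; exact congrArg ι c), h2.disc, h2.covol⟩
  refine kazT_gen (a i).lp hT _ (hu i) (Subgroup.map_injective (Subgroup.subtype_injective _) ?_)
  rw [Subgroup.map_sup, b', Subgroup.map_subgroupOf_eq_of_le le_sup_left, ← MonoidHom.range_comp,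
    ← MonoidHom.range_eq_map, Subgroup.range_subtype]
  rfl

end Vale.Agent.P092GV
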