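import Vale.Agent.P092GV.Virt
import Vale.Agent.P092.H759.TL.TExt
import Vale.Agent.P092.H759.TL.FG
import Vale.Agent.P092.H259.Grp
import Vale.Agent.P092GH.HM
import Vale.Agent.P092GP.Flag
import Vale.Agent.P092LS.QuoT
import Vale.Agent.P092LS.ResT

/-!
P092, final glue: property (T) of the group generated by the unipotent radicals, and the reduction of
the core statement to the simple quotient.
-/

set_option autoImplicit false
set_option linter.all false

open Filter Topology MeasureTheory Set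
open scoped Pointwise ENNReal

namespace Vale.Agent.P092GV

open Vale.Agent.P092 Vale.Agent.P092.H678.OV Vale.Agent.P092GP Vale.Agent.P092GP.LD

/-- The image of `f` is not relatively compact. -/
def Unb {Γ G : Type} [TopologicalSpace G] (f : Γ → G) : Prop :=
  ∀ K : Set G, IsCompact K → ∃ γ, f γ ∉ K

/-- The image of a lattice in a noncompact quotient is unbounded. -/
theorem unb {E G : Type} [Group E] [TopologicalSpace E] [IsTopologicalGroup E]
    [SecondCountableTopology E] [Group G] [TopologicalSpace G] [IsTopologicalGroup G]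
    [LocallyCompactSpace G] [NoncompactSpace G] (p : E →* G) (hc : Continuous p)
    (hs : Function.Surjective p) {Λ : Subgroup E} (h : H515.St.IsLattice Λ) :
    Unb fun γ : Λ => p γ := by
  intro K hK
  by_contra hn
  push Not at hn
  obtain ⟨ν, h0, hfin, hinv⟩ := h.covol
  letI : MeasurableSpace (E ⧸ Λ) := borel _
  haveI : BorelSpace (E ⧸ Λ) := ⟨rfl⟩
  obtain ⟨C, hC, hC1⟩ := exists_compact_mem_nhds (1 : G)
  have hO : IsOpen ((QuotientGroup.mk : E → E ⧸ Λ) '' (p ⁻¹' interior C)) :=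
    QuotientGroup.isOpenMap_coe _ (isOpen_interior.preimage hc)
  have hpos := VR.open_pos ν h0 hinv _ hO
    ⟨_, 1, by rw [mem_preimage, map_one]; exact mem_interior_iff_mem_nhds.2 hC1, rfl⟩
  have hD : IsCompact (C * K * C⁻¹) := (hC.mul hK).mul hC.inv
  obtain ⟨g, -, hg⟩ := exists_seq_of_forall_finset_exists (fun _ : E => True)
    (fun x y => p y * (p x)⁻¹ ∉ C * K * C⁻¹) fun s _ => by
      have h1 : IsCompact (⋃ x ∈ s, (fun d => d * p x) '' (C * K * C⁻¹)) :=
        s.isCompact_biUnion fun x _ => hD.image (continuous_mul_const _)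
      obtain ⟨y, hy⟩ := (ne_univ_iff_exists_notMem _).1 h1.ne_univ
      obtain ⟨y, rfl⟩ := hs y
      exact ⟨y, trivial, fun x hx a => hy (mem_iUnion₂.2 ⟨x, hx, _, a, inv_mul_cancel_right _ _⟩)⟩
  have key : ∀ m n, m < n → ∀ z : E ⧸ Λ, g m • z ∈ (QuotientGroup.mk : E → E ⧸ Λ) '' (p ⁻¹' interior C) →
      g n • z ∈ (QuotientGroup.mk : E → E ⧸ Λ) '' (p ⁻¹' interior C) → False := by
    rintro m n hmn z ⟨a, ha, ea⟩ ⟨b, hb, eb⟩
    obtain ⟨z, rfl⟩ := QuotientGroup.mk_surjective z
    have h1 : a⁻¹ * (g m * z) ∈ Λ := QuotientGroup.eq.1 ea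
    have h2 : b⁻¹ * (g n * z) ∈ Λ := QuotientGroup.eq.1 eb
    refine hg m n hmn ⟨_, ⟨_, interior_subset hb, _, hn ⟨_, Λ.mul_mem h2 (Λ.inv_mem h1)⟩, rfl⟩, (p a)⁻¹,
      inv_mem_inv.2 (interior_subset ha), ?_⟩
    simp only [map_mul, map_inv]
    group
  obtain ⟨i, j, hij, z, h1, h2⟩ := exists_nonempty_inter_of_measure_univ_lt_tsum_measure ν
    (s := fun n : ℕ => (fun x : E ⧸ Λ => g n • x) ⁻¹'
      ((QuotientGroup.mk : E → E ⧸ Λ) '' (p ⁻¹' interior C)))
    (fun n => (hO.preimage (continuous_const_smul _)).measurableSet.nullMeasurableSet) (by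
      simp only [hinv _ _ hO.measurableSet]
      rw [ENNReal.tsum_const_eq_top_of_ne_zero hpos]
      exact hfin)
  rcases lt_or_gt_of_ne hij with a | a
  · exact key i j a z h1 h2
  · exact key j i a z h2 h1

theorem countable_of_propT {Γ : Type} [Group Γ] (h : UN.PropT Γ) : Countable Γ := by
  obtain ⟨S, h1, h2⟩ := Monoid.fg_iff.1 (Group.fg_iff_monoid_fg.1 (H759.TL.fg_of_propT h))
  haveI := h2.to_subtype
  refine Function.Surjective.countable (f := fun l : List S => (l.map Subtype.val).prod) fun g => ?_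
  obtain ⟨l, a, rfl⟩ := Submonoid.exists_list_of_mem_closure (h1.ge (Submonoid.mem_top g))
  exact ⟨l.attach.map fun x => ⟨x.1, a _ x.2⟩, by simp [Function.comp_def]⟩

/-- Property (T) passes to subgroups of finite index. -/
theorem propT_fi {Γ : Type} [Group Γ] (h : UN.PropT Γ) (N : Subgroup Γ) [N.FiniteIndex] :
    UN.PropT N := by
  letI : TopologicalSpace Γ := ⊥
  haveI : DiscreteTopology Γ := ⟨rfl⟩
  haveI := countable_of_propT h
  haveI : Finite (Γ ⧸ N) := Subgroup.finite_quotient_of_finiteIndex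
  letI : MeasurableSpace (Γ ⧸ N) := borel _
  haveI : BorelSpace (Γ ⧸ N) := ⟨rfl⟩
  obtain ⟨Q, κ, hκ, h⟩ := h
  refine H759.TL.propT_sub (E := Γ) ⟨Q, κ, Q.finite_toSet.isCompact, hκ,
    fun H _ _ _ σ h1 _ h2 v => h H σ h1 h2 v⟩ ⟨inferInstance, Measure.count, ?_, ?_, ?_⟩
  · exact NeZero.ne _
  · exact measure_lt_top _ _
  · intro g s hs
    rw [Measure.count_apply hs, Measure.count_apply (hs.preimage (measurable_const_smul g))]
    exact congrArg _ (Set.encard_preimage_of_bijective (MulAction.bijective g) s)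

theorem hasT_of_propT {Γ : Type} [Group Γ] (h : UN.PropT Γ) : UN.HasT Γ := by
  obtain ⟨Q, κ, hκ, h⟩ := h
  refine ⟨Q, κ, hκ, fun H _ _ _ σ h1 h2 h3 h4 h5 v => ?_⟩
  exact h H ⟨⟨fun g => LinearMap.mkContinuous ((h1 g).mk' (σ g)) 1 fun x => by
      rw [one_mul]; exact (h2 g x).le, ContinuousLinearMap.ext h3⟩,
    fun a b => ContinuousLinearMap.ext (h4 a b)⟩ h2 h5 v

variable {k G : Type} [NontriviallyNormedField k] [Group G] [TopologicalSpace G] {L : LD k G}

theorem Gp_fl : P092GH.Gp L.fl = L.Gp := by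
  rw [P092GH.Gp, Subgroup.closure_union, Subgroup.closure_eq, Subgroup.closure_eq]
  rfl

theorem noncompact (H : L.LP) : NoncompactSpace G := by
  haveI := H.top
  haveI := H.t2
  have h := P092GH.pow_cocompact H.fl (H.fl.bZ ⟨0, H.ok.root.pos⟩) (P092GH.ℓ_b_ne H.fl _)
  exact ⟨fun a => by simpa using h a.compl_mem_cocompact⟩

/-- Property (T) from an unbounded image of a discrete group with property (T). -/
theorem kazT_gen (H : L.LP) {Γ : Type} [Group Γ] (h : UN.PropT Γ) (f : Γ →* G) (hu : Unb f)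
    (hg : L.Gp ⊔ f.range = ⊤) : UN.KazT G := by
  haveI := H.top
  haveI := H.t2
  haveI := H.prop
  obtain ⟨N, τ, w, hp⟩ := H.pan
  obtain ⟨Q, κ, hκ, h⟩ := h
  refine ⟨f '' Q, κ, (Q.finite_toSet.image f).isCompact, hκ, fun V _ _ _ σ h1 h2 h3 v => ?_⟩
  suffices h4 : ∀ v, (∀ γ, σ (f γ) v = v) → v = 0 from
    let ⟨g, a, b⟩ := h V (σ.comp f) (fun g => h1 _) h4 v
    ⟨_, ⟨g, a, rfl⟩, b⟩
  refine fun v hv => h3 v fun g => ?_
  haveI : (comap f (cocompact G)).NeBot := comap_neBot fun t ht => by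
    obtain ⟨K, a, b⟩ := mem_cocompact.1 ht
    exact (hu K a).imp fun _ c => b c
  let S : Subgroup G :=
    { carrier := {g | σ g v = v}
      one_mem' := by simp
      mul_mem' := fun {a b} (c : σ a v = v) (d : σ b v = v) => by
        show σ (a * b) v = v
        rw [map_mul, ContinuousLinearMap.mul_apply, d, c]
      inv_mem' := fun {a} (c : σ a v = v) => by
        show σ a⁻¹ v = v
        conv_lhs => rw [← c]
        exact H421.Hs.inv_ap a v }
  have : L.Gp ⊔ f.range ≤ S := sup_le (fun g a => P092GH.moore H.fl hp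
    ⟨h1, fun ξ => by simpa using (h2 ξ).tendsto 1⟩ tendsto_comap hv (Gp_fl.ge a))
    (by rintro _ ⟨γ, rfl⟩; exact hv γ)
  exact this (hg.ge (Subgroup.mem_top g))

/-- The restriction of `f` to the preimage of a subgroup. -/
def resH {Γ : Type} [Group Γ] (f : Γ →* G) (N : Subgroup G) : N.comap f →* N :=
  (f.comp (N.comap f).subtype).codRestrict N fun x => x.2

theorem unb_res [IsTopologicalGroup G] {Γ : Type} [Group Γ] {f : Γ →* G} (hu : Unb f)
    (N : Subgroup G) [(N.comap f).FiniteIndex] : Unb (resH f N) := by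
  intro K hK
  by_contra hn
  push Not at hn
  haveI : Finite (Γ ⧸ N.comap f) := Subgroup.finite_quotient_of_finiteIndex
  obtain ⟨γ, a⟩ := hu _ (isCompact_iUnion fun q : Γ ⧸ N.comap f =>
    (hK.image continuous_subtype_val).image (continuous_mul_const (f (q.out)⁻¹)))
  obtain ⟨⟨q, n⟩, rfl⟩ := (eqN (N.comap f)).surjective γ
  exact a (mem_iUnion.2 ⟨q, _, ⟨_, hn n, rfl⟩, (map_mul f _ _).symm⟩)

/-- Property (T) of `Gp`. -/
theorem kazT_Gp (H : L.LS) {Γ : Type} [Group Γ] (h : UN.PropT Γ) (f : Γ →* G) (hu : Unb f) :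
    UN.KazT L.Gp := by
  haveI := H.lp.top
  haveI := H.quo Γ (hasT_of_propT h) f
  obtain ⟨L', a, -, b⟩ := P092LS.ls_sub H le_rfl H.closed
  refine kazT_gen a.lp (propT_fi h _) _ (unb_res hu L.Gp) ?_
  rw [b, Subgroup.subgroupOf_self, top_sup_eq]

/-- The core statement for the simple groups with the root datum `R`. -/
def Core (k : Type) [NontriviallyNormedField k] (R : P183CH.RS) : Prop :=
  ∀ (G : Type) [Group G] [TopologicalSpace G] (L : LD k G), L.LS → L.R = R → L.Gp = ⊤ →
    Subgroup.center G = ⊥ → UN.KazT G → OverStmt G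

/-- **Reduction to the simple quotient.** -/
theorem over_of_core (H : L.LS) (hf : L.Gp.FiniteIndex) (hT : UN.KazT L.Gp) (hC : Core k L.R) :
    OverStmt G := by
  haveI := H.lp.top
  haveI := H.lp.sc
  haveI := H.lp.t2
  obtain ⟨L', a, r, b⟩ := P092LS.ls_sub H le_rfl H.closed
  obtain ⟨L'', a', r', b', -, c⟩ := P092LS.ls_center a
  haveI := a'.lp.t2
  haveI := a'.lp.lc
  have hz : Finite (Subgroup.center L.Gp) :=
    a.cfin.subset fun g a u _ => (Subgroup.mem_center_iff.1 a u).symm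
  refine over_sub L.Gp H.closed (H259.pq _) (H259.isProperMap_pq hz) H259.pq_surj
    (hC _ L'' a' (r'.trans r) ?_ c (H759.TL.kazT_surj _ H259.continuous_pq H259.pq_surj hT))
  rw [b', b, Subgroup.subgroupOf_self]
  exact Subgroup.map_top_of_surjective _ H259.pq_surj

theorem over_ls_of (H : L.LS) (hf : L.Gp.FiniteIndex) {Γ : Type} [Group Γ] (h : UN.PropT Γ)
    (f : Γ →* G) (hu : Unb f) (hC : Core k L.R) : OverStmt G :=
  over_of_core H hf (kazT_Gp H h f hu) hC

end Vale.Agent.P092GV
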