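import Vale.Agent.P092.UN.St1

/-!
P092: the conclusion of Q1 in the form of the problem. Only a definition.
-/

namespace Vale.Agent.P092GV

open Vale.Agent.P092.UN

/-- The conclusion of Q1 for `Γ`: if `Λ` is a countable ICC group, `p` a projection of `M_n(L(Γ))` and
`L(Λ) ≅ p M_n(L(Γ)) p = L(Γ)^t`, `t = (Tr ⊗ τ)(p)`, then `t = 1`, `Λ ≅ Γ` and every isomorphism
`L(Γ) → L(Λ)` is canonical. -/
def Q1 (Γ : Type) [Group Γ] : Prop :=
  ∀ (Λ : Type) [Group Λ] [Countable Λ], ICC Λ → ∀ (n : ℕ) (p : MOp n Γ), IsProj p →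
    Nonempty (CornerIso Λ Γ n p) →
      mtr p = 1 ∧ Nonempty (Λ ≃* Γ) ∧ ∀ θ : StarIso Γ Λ, Canonical θ

end Vale.Agent.P092GV
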