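import Vale.Agent.P092.H678.O.Cls
import Vale.Agent.P092.VR.Lat
import Vale.Agent.P092.H259.Fk.Prop

/-!
P092, final glue: the core statement for systems passes from a subgroup of finite index, and from a
quotient by a compact kernel, to the whole group.
-/

set_option autoImplicit false
set_option linter.all false

open scoped InnerProductSpace ENNReal
open ContinuousLinearMap Filter Topology

namespace Vale.Agent.P092GV

open Vale.Agent.P092 Vale.Agent.P092.H678.OV Vale.Agent.P092.H962.Eq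
open Vale.Agent.P092.SR (Tri)
open Vale.Agent.P092.H421.Hs

section res

variable {Γ ℋ : Type} [Group Γ] [NormedAddCommGroup ℋ] [InnerProductSpace ℂ ℋ] [CompleteSpace ℋ]
  {V R R₁ R₂ : Γ →* (ℋ →L[ℂ] ℋ)}

theorem frq_mv {Q : Type} {e : Q → ℋ} (h : Frq R e) {U U' : ℋ →L[ℂ] ℋ} (hU : adjoint U = U')
    (hn : ∀ v, ‖U' v‖ = ‖v‖) (hc : ∀ g, U * R g = R g * U) : Frq R fun q => U (e q) := by
  intro η
  rw [← enn_congr (hn η), ← h (U' η)]
  refine tsum_congr fun p => ?_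
  change ‖⟪R p.2 (U (e p.1)), η⟫_ℂ‖ₑ ^ 2 = ‖⟪R p.2 (e p.1), U' η⟫_ℂ‖ₑ ^ 2
  rw [← comm_ap (hc _), ← hU, adjoint_inner_right]

theorem enorm_sum_sq_le {ι : Type} [Fintype ι] (x : ι → ℋ) :
    ‖∑ i, x i‖ₑ ^ 2 ≤ (Fintype.card ι : ℝ≥0∞) * ∑ i, ‖x i‖ₑ ^ 2 := by
  have h1 : ‖∑ i, x i‖ ^ 2 ≤ (Fintype.card ι : ℝ) * ∑ i, ‖x i‖ ^ 2 :=
    (pow_le_pow_left₀ (norm_nonneg _) (norm_sum_le _ _) 2).trans
      (by simpa using sq_sum_le_card_mul_sum_sq (s := Finset.univ) (f := fun i => ‖x i‖))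
  rw [enn_sq']
  refine (ENNReal.ofReal_le_ofReal h1).trans (le_of_eq ?_)
  rw [ENNReal.ofReal_mul (Nat.cast_nonneg _), ENNReal.ofReal_natCast,
    ENNReal.ofReal_sum_of_nonneg fun i _ => sq_nonneg _]
  simp only [enn_sq']

/-- The vanishing property passes to subgroups of finite index. -/
theorem hsq_res (N : Subgroup Γ) [N.FiniteIndex] (hVa : ∀ g, adjoint (V g) = V g⁻¹)
    (hRa : ∀ g, adjoint (R g) = R g⁻¹) (hVR : ∀ g h, V g * R h = R h * V g)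
    (hf : ∃ (Q : Type) (e : Q → ℋ), Frq R e) (h : Hsq V R) : Hsq (rs N V) (rs N R) := by
  obtain ⟨Q₀, e₀, he₀⟩ := hf
  intro Q e he A hAV hAR hA
  set ρ : Γ × Γ →* (ℋ →L[ℂ] ℋ) := MonoidHom.noncommCoprod V R fun a b => hVR a b with hρ
  have ρe : ∀ g : Γ × Γ, ρ g = V g.1 * R g.2 := fun g => rfl
  set M : Subgroup (Γ × Γ) := N.prod N with hM
  haveI : M.FiniteIndex := ⟨by
    rw [hM, Subgroup.index_prod]
    exact mul_ne_zero Subgroup.FiniteIndex.index_ne_zero Subgroup.FiniteIndex.index_ne_zero⟩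
  haveI : Finite ((Γ × Γ) ⧸ M) := Subgroup.finite_quotient_of_finiteIndex
  letI : Fintype ((Γ × Γ) ⧸ M) := Fintype.ofFinite _
  have hadj : ∀ g, adjoint (ρ g) = ρ g⁻¹ := fun g => by
    rw [ρe, ρe, adj_mul', hVa, hRa]
    exact (hVR _ _).symm
  have hC : Cc (SM ρ M) A := by
    rintro _ ⟨⟨a, b⟩, ⟨ha, hb⟩, rfl⟩
    have e1 : A * V a = V a * A := hAV ⟨a, ha⟩
    have e2 : A * R b = R b * A := hAR ⟨b, hb⟩
    rw [ρe, ← mul_assoc, e1, mul_assoc, e2, mul_assoc]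
  have hB := avg_comm ((hC.adj (SM_adj hadj)).mul hC)
  have hrR : ∀ n, adjoint (rs N R n) = rs N R n⁻¹ := fun n => hRa n
  have fin : ∀ g : Γ × Γ, ∑' i, ‖A (ρ g (e₀ i))‖ₑ ^ 2 < ∞ := by
    rintro ⟨a, b⟩
    obtain ⟨⟨c, n⟩, hb⟩ := (eqN N).surjective b
    have h1 : Frq (rs N R) fun p : Q₀ × (Γ ⧸ N) => V a (R (p.2.out)⁻¹ (e₀ p.1)) :=
      frq_mv (frq_res N he₀) (hVa a) (norm_U hVa _) fun g => hVR a g
    have h2 := trq_indep hrR he h1 hAR
    refine lt_of_le_of_lt ?_ (h2.le.trans_lt hA)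
    refine le_trans (le_of_eq (tsum_congr fun i => ?_)) (ENNReal.tsum_comp_le_tsum_of_injective
      (f := fun i : Q₀ => ((i, c) : Q₀ × (Γ ⧸ N))) (fun i j hij => congrArg Prod.fst hij) _)
    change ‖A (V a (R b (e₀ i)))‖ₑ ^ 2 = ‖A (V a (R (c.out)⁻¹ (e₀ i)))‖ₑ ^ 2
    rw [← hb, eqN_apply, ap_mul, comm_ap (hVR _ _)]
    have e2 : A * R (n : Γ) = R (n : Γ) * A := hAR n
    rw [comm_ap e2, enn_congr (norm_U hRa _ _)]
  have h0 : avg ρ M (adjoint A * A) = 0 := by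
    refine h Q₀ e₀ he₀ _ (fun g => ?_) (fun g => ?_) ?_
    · have := hB (g, 1)
      rwa [ρe, map_one, mul_one] at this
    · have := hB (1, g)
      rwa [ρe, map_one, one_mul] at this
    · have h1 : ∀ i, ‖avg ρ M (adjoint A * A) (e₀ i)‖ₑ ^ 2 ≤ (Fintype.card ((Γ × Γ) ⧸ M) : ℝ≥0∞) *
          ∑ q : (Γ × Γ) ⧸ M, ‖adjoint A‖ₑ ^ 2 * ‖A (ρ q.out⁻¹ (e₀ i))‖ₑ ^ 2 := fun i => by
        rw [avg, ContinuousLinearMap.sum_apply]
        refine (enorm_sum_sq_le _).trans (mul_le_mul_right (Finset.sum_le_sum fun q _ => ?_) _)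
        change ‖ρ q.out (adjoint A (A (ρ q.out⁻¹ (e₀ i))))‖ₑ ^ 2 ≤ _
        rw [enn_congr (rho_norm hadj _ _), ← mul_pow]
        exact pow_le_pow_left₀ zero_le (ContinuousLinearMap.le_opENorm _ _) 2
      refine (ENNReal.tsum_le_tsum h1).trans_lt ?_
      rw [ENNReal.tsum_mul_left, Summable.tsum_finsetSum fun _ _ => ENNReal.summable]
      refine ENNReal.mul_lt_top (ENNReal.natCast_lt_top _) (ENNReal.sum_lt_top.2 fun q _ => ?_)
      rw [ENNReal.tsum_mul_left]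
      exact ENNReal.mul_lt_top (ENNReal.pow_lt_top enorm_lt_top) (fin _)
  ext1 v
  obtain ⟨q, -⟩ : ∃ q : (Γ × Γ) ⧸ M, q = ((1 : Γ × Γ) : (Γ × Γ) ⧸ M) := ⟨_, rfl⟩
  have h1 := cf_sq (M := M) hadj (ρ q.out v) A
  rw [cf, h0] at h1
  have h2 : n2 ρ M (ρ q.out v) A = 0 := by
    have : ((n2 ρ M (ρ q.out v) A : ℝ) : ℂ) = 0 := by rw [← h1]; simp
    exact_mod_cast this
  have h3 := (Finset.sum_eq_zero_iff_of_nonneg fun q _ => sq_nonneg _).1 h2 q (Finset.mem_univ q)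
  rw [inv_ap] at h3
  exact norm_eq_zero.1 ((pow_eq_zero_iff two_ne_zero).1 h3)

theorem frq_tri {κ : Type} [Fintype κ] {ξ : κ → ℋ} (h : Tri V R₁ R₂ ξ) :
    Frq R₁ fun p : κ × Γ => R₂ p.2 (ξ p.1) := by
  refine pf_of_hasSum fun η => ?_
  have h1 := ((Equiv.prodAssoc κ Γ Γ).trans
    (Equiv.prodCongr (Equiv.refl κ) (Equiv.prodComm Γ Γ))).hasSum_iff.2 (h.frame η)
  exact h1

/-- A subgroup of finite index has a system in a closed invariant subspace. -/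
theorem exists_sys' [Infinite Γ] (hΓ : Icc Γ) (h : Sys V R₁ R₂) (N : Subgroup Γ) [N.FiniteIndex] :
    ∃ (L : Type) (_ : NormedAddCommGroup L) (_ : InnerProductSpace ℂ L) (_ : CompleteSpace L)
      (W : L →L[ℂ] ℋ) (hV : Iso W (rs N V)) (h₁ : Iso W (rs N R₁)) (h₂ : Iso W (rs N R₂)),
      Sys (cmp hV) (cmp h₁) (cmp h₂) := by
  obtain ⟨κ, _, ξ, hT, -⟩ := h.t₁
  obtain ⟨κ', _, ξ', hT', -⟩ := h.t₂
  have g₀ : GTri V R₁ R₂ := ⟨κ, inferInstance, ξ, hT⟩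
  haveI : Nontrivial ℋ := by
    obtain ⟨k, hk⟩ := hT.ne
    exact ⟨⟨ξ k, 0, hk⟩⟩
  haveI : Infinite N := infinite_fi N
  have hN : Icc N := icc_fi hΓ N
  set ρ := rho3 hT.comm₁ hT.comm₂ hT.comm₁₂ with hρ
  set M : Subgroup (Γ × Γ × Γ) := N.prod (N.prod N) with hM
  haveI : (N.prod N).FiniteIndex := ⟨by
    rw [Subgroup.index_prod]
    exact mul_ne_zero Subgroup.FiniteIndex.index_ne_zero Subgroup.FiniteIndex.index_ne_zero⟩
  haveI : M.FiniteIndex := ⟨by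
    rw [hM, Subgroup.index_prod]
    exact mul_ne_zero Subgroup.FiniteIndex.index_ne_zero Subgroup.FiniteIndex.index_ne_zero⟩
  haveI : Finite ((Γ × Γ × Γ) ⧸ M) := Subgroup.finite_quotient_of_finiteIndex
  letI : Fintype ((Γ × Γ × Γ) ⧸ M) := Fintype.ofFinite _
  have hadj : ∀ g, adjoint (ρ g) = ρ g⁻¹ := by
    intro g
    change adjoint (V g.1 * (R₁ g.2.1 * R₂ g.2.2)) = V (g.1)⁻¹ * (R₁ (g.2.1)⁻¹ * R₂ (g.2.2)⁻¹)
    rw [adj_mul', adj_mul', hT.adjV, hT.adj₁, hT.adj₂, ← hT.comm₁₂, mul_assoc, ← hT.comm₂,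
      ← mul_assoc, ← hT.comm₁, mul_assoc]
  have hV' : ∀ g, ρ (g, 1, 1) = V g := fun g => by
    change V g * (R₁ 1 * R₂ 1) = V g
    rw [map_one, map_one, mul_one, mul_one]
  have hR₁' : ∀ g, ρ (1, g, 1) = R₁ g := fun g => by
    change V 1 * (R₁ g * R₂ 1) = R₁ g
    rw [map_one, map_one, mul_one, one_mul]
  have hR₂' : ∀ g, ρ (1, 1, g) = R₂ g := fun g => by
    change V 1 * (R₁ 1 * R₂ g) = R₂ g
    rw [map_one, map_one, one_mul, one_mul]
  obtain ⟨p, hp, hsc⟩ := exists_cut (M := M) hadj (fun A hA => h.irr A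
    (fun v => by have := hA (v, 1, 1); rwa [hV'] at this)
    (fun v => by have := hA (1, v, 1); rwa [hR₁'] at this)
    (fun v => by have := hA (1, 1, v); rwa [hR₂'] at this))
  have pV : ∀ n : N, p * V n = V n * p := fun n => by
    have := hp.cc _ ⟨((n : Γ), 1, 1), ⟨n.2, N.one_mem, N.one_mem⟩, rfl⟩
    rwa [hV'] at this
  have pR₁ : ∀ n : N, p * R₁ n = R₁ n * p := fun n => by
    have := hp.cc _ ⟨(1, (n : Γ), 1), ⟨N.one_mem, n.2, N.one_mem⟩, rfl⟩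
    rwa [hR₁'] at this
  have pR₂ : ∀ n : N, p * R₂ n = R₂ n * p := fun n => by
    have := hp.cc _ ⟨(1, 1, (n : Γ)), ⟨N.one_mem, N.one_mem, n.2⟩, rfl⟩
    rwa [hR₂'] at this
  obtain ⟨L, _, _, _, _, W, hW1, hW2⟩ := exists_W hp.adj hp.sq hp.ne
  have iV : Iso W (rs N V) := ⟨hW1, fun n v => by
    rw [hW2, hW2]; exact DFunLike.congr_fun (pV n) v⟩
  have i₁ : Iso W (rs N R₁) := ⟨hW1, fun n v => by
    rw [hW2, hW2]; exact DFunLike.congr_fun (pR₁ n) v⟩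
  have i₂ : Iso W (rs N R₂) := ⟨hW1, fun n v => by
    rw [hW2, hW2]; exact DFunLike.congr_fun (pR₂ n) v⟩
  have g0 : GTri (cmp iV) (cmp i₁) (cmp i₂) := gtri_cmp iV i₁ i₂ (gtri_res N g₀)
  have hr₁ : ∀ n, adjoint (rs N R₁ n) = rs N R₁ n⁻¹ := fun n => hT.adj₁ n
  have hr₂ : ∀ n, adjoint (rs N R₂ n) = rs N R₂ n⁻¹ := fun n => hT.adj₂ n
  refine ⟨L, inferInstance, inferInstance, inferInstance, W, iV, i₁, i₂, basis_cmp iV h.basis,
    htri_of_gtri hN g0, htri_of_gtri hN (gtri_swap g0), gtri_cmp i₁ iV i₂ (gtri_res N h.g₁),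
    gtri_cmp i₂ iV i₁ (gtri_res N h.g₂), irr_cmp iV i₁ i₂ ?_, ?_, ?_⟩
  · intro A hA hA₁ hA₂
    obtain ⟨z, hz⟩ := hsc A (by
      rintro _ ⟨⟨a, b, c⟩, ⟨ha, hb, hc⟩, rfl⟩
      change A * (V a * (R₁ b * R₂ c)) = (V a * (R₁ b * R₂ c)) * A
      have e1 : A * V a = V a * A := hA ⟨a, ha⟩
      have e2 : A * R₁ b = R₁ b * A := hA₁ ⟨b, hb⟩
      have e3 : A * R₂ c = R₂ c * A := hA₂ ⟨c, hc⟩
      rw [← mul_assoc, e1, mul_assoc, ← mul_assoc A, e2, mul_assoc (R₁ b), e3]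
      simp only [mul_assoc])
    refine ⟨z, fun v => ?_⟩
    rw [hW2, hW2]
    exact DFunLike.congr_fun hz v
  · exact hsq_cmp iV i₁ hr₁ ⟨_, _, frq_res N (frq_tri hT)⟩
      (hsq_res N hT.adjV hT.adj₁ hT.comm₁ ⟨_, _, frq_tri hT⟩ h.hs₁)
  · exact hsq_cmp iV i₂ hr₂ ⟨_, _, frq_res N (frq_tri hT')⟩
      (hsq_res N hT.adjV hT.adj₂ hT.comm₂ ⟨_, _, frq_tri hT'⟩ h.hs₂)

theorem over_finite [Finite Γ] (hΓ : Icc Γ) (h : Sys V R₁ R₂) : OverV V R₁ R₂ := by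
  obtain ⟨κ, _, ξ, hT, -⟩ := h.t₁
  obtain ⟨k, hk⟩ := hT.ne
  refine ⟨1, fun _ => ξ k, ‖ξ k‖ ^ 2, pow_pos (norm_pos_iff.2 hk) 2, fun g => ⟨0, 0, 1, 1, ?_⟩⟩
  obtain rfl : g = 1 := by
    by_contra hg
    exact hΓ g hg (Set.toFinite _)
  simp only [map_one, ContinuousLinearMap.one_apply]
  rw [inner_self_eq_norm_sq_to_K]
  simp

/-- Overlap for a system of a group with a subgroup of finite index which is a lattice of `Q`. -/
theorem over_fi {Q : Type} [Group Q] [TopologicalSpace Q] (hQ : OverStmt Q) (hΓ : Icc Γ)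
    (N : Subgroup Γ) [N.FiniteIndex] (i : N →* Q) (hi : Function.Injective i)
    (hl : H515.St.IsLattice i.range) (h : Sys V R₁ R₂) : OverV V R₁ R₂ := by
  rcases finite_or_infinite Γ with hf | hf
  · exact over_finite hΓ h
  obtain ⟨L, _, _, _, W, hV, h₁, h₂, hS⟩ := exists_sys' hΓ h N
  obtain ⟨κ, _, ξ, hT, -⟩ := h.t₁
  exact over_up N hT.adjV (over_of_stmt hQ (icc_fi hΓ N) i hi hl hS)

end res

/-- **The core statement goes up**: from the image `Q` of `M` under a proper homomorphism with range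
of finite index to a group `E` which contains `M` as an open subgroup of finite index. -/
theorem over_virt {E M Q : Type} [Group E] [TopologicalSpace E] [IsTopologicalGroup E]
    [SecondCountableTopology E] [Group M] [TopologicalSpace M] [IsTopologicalGroup M] [Group Q]
    [TopologicalSpace Q] [IsTopologicalGroup Q] [T2Space Q] [LocallyCompactSpace Q] (φ : M →* E)
    (hi : Function.Injective φ) (hc : Continuous φ) (ho : IsOpenMap φ) (hφ : φ.range.FiniteIndex)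
    (π : M →* Q) (hπ : IsProperMap π) (hr : π.range.FiniteIndex) (hQ : OverStmt Q) :
    OverStmt E := by
  intro Γ hl hΓ ℋ _ _ _ V R₁ R₂ h
  haveI := hφ
  haveI : (φ.range.subgroupOf Γ).FiniteIndex := inferInstance
  let e : M ≃* φ.range := MonoidHom.ofInjective hi
  let j : φ.range.subgroupOf Γ →* M := e.symm.toMonoidHom.comp
    ((Γ.subtype.comp (φ.range.subgroupOf Γ).subtype).codRestrict _ fun x => x.2)
  have hj : ∀ x, φ (j x) = ((x : Γ) : E) := fun x =>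
    congrArg Subtype.val (e.apply_symm_apply ⟨((x : Γ) : E), x.2⟩)
  have hji : Function.Injective j := fun x y hxy =>
    Subtype.ext (Subtype.ext (by rw [← hj, ← hj, hxy]))
  have hjr : j.range = Γ.comap φ := by
    ext m
    constructor
    · rintro ⟨x, rfl⟩
      rw [Subgroup.mem_comap, hj]
      exact (x : Γ).2
    · intro hm
      exact ⟨⟨⟨φ m, hm⟩, ⟨m, rfl⟩⟩, hi (hj _)⟩
  have h1 := VR.lat_comap φ hi hc ho Γ ⟨hl.disc, hl.covol⟩
  rw [← hjr] at h1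
  obtain ⟨h2, h3⟩ := H259.Fk.lat_proper' (icc_fi hΓ (φ.range.subgroupOf Γ)) π hπ hr j hji
    ⟨h1.disc, h1.covol⟩
  exact over_fi hQ hΓ _ _ h2 h3 h

/-- The case of a closed subgroup of finite index. -/
theorem over_sub {E Q : Type} [Group E] [TopologicalSpace E] [IsTopologicalGroup E]
    [SecondCountableTopology E] [Group Q] [TopologicalSpace Q] [IsTopologicalGroup Q] [T2Space Q]
    [LocallyCompactSpace Q] (N : Subgroup E) [hN : N.FiniteIndex] (hc : IsClosed (N : Set E))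
    (π : N →* Q) (hπ : IsProperMap π) (hr : Function.Surjective π) (hQ : OverStmt Q) :
    OverStmt E :=
  over_virt N.subtype Subtype.val_injective continuous_subtype_val
    (N.isOpen_of_isClosed_of_finiteIndex hc).isOpenMap_subtype_val (by rwa [N.range_subtype]) π hπ
    (by rw [MonoidHom.range_eq_top.2 hr]; infer_instance) hQ

end Vale.Agent.P092GV
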